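import Vale.Agent.P011UF2.Defs
import Mathlib.Data.Sym.Card

/-!
Stable subspaces of projective descent data; the index of an algebra of degree six whose class is
killed by three.
-/

set_option autoImplicit false
set_option linter.all false

namespace Vale.Agent.P011UF2a

open Matrix Module Vale.Agent.P011LD Vale.Agent.P011LE Vale.Agent.P011UF2
open scoped Kronecker

section

variable {k K : Type} [Field k] [Field K] [Algebra k K] {Γ : Subgroup (K ≃ₐ[k] K)}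
  {m n : Type} [Fintype m] [DecidableEq m] [Fintype n] [DecidableEq n]
  {A : (K ≃ₐ[k] K) → GL m K} {B : (K ≃ₐ[k] K) → GL n K}

/-- Stable subspaces. -/
def Stb (Γ : Subgroup (K ≃ₐ[k] K)) (A : (K ≃ₐ[k] K) → GL m K) (U : Submodule K (m → K)) : Prop :=
  ∀ σ ∈ Γ, ∀ v ∈ U, (A σ).1 *ᵥ (σ ∘ v) ∈ U

/-- Two projective actions with the same scalars. -/
structure Cm (Γ : Subgroup (K ≃ₐ[k] K)) (A : (K ≃ₐ[k] K) → GL m K) (B : (K ≃ₐ[k] K) → GL n K) :
    Prop where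
  mul : ∀ σ ∈ Γ, ∀ τ ∈ Γ, ∃ c : K, (A σ).1 * (A τ).1.map σ = c • (A (σ * τ)).1 ∧
    (B σ).1 * (B τ).1.map σ = c • (B (σ * τ)).1
  cont : Op Γ fun σ => ∃ c : K, (A σ).1 = c • 1 ∧ (B σ).1 = c • 1

/-- Equivariant maps. -/
def Eq' (Γ : Subgroup (K ≃ₐ[k] K)) (A : (K ≃ₐ[k] K) → GL m K) (B : (K ≃ₐ[k] K) → GL n K)
    (Y : Matrix n m K) : Prop := ∀ σ ∈ Γ, Y * (A σ).1 = (B σ).1 * Y.map σ

/-- Stable subspaces of the least positive dimension. -/
def Mi (Γ : Subgroup (K ≃ₐ[k] K)) (B : (K ≃ₐ[k] K) → GL n K) (S : Submodule K (n → K)) : Prop :=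
  Stb Γ B S ∧ S ≠ ⊥ ∧ ∀ T, Stb Γ B T → T ≠ ⊥ → finrank K S ≤ finrank K T

theorem Cm.right (h : Cm Γ A B) : Cm Γ B B :=
  ⟨fun σ s τ t => (h.mul σ s τ t).imp fun _ e => ⟨e.2, e.2⟩,
    h.cont.imp fun _ _ e => e.imp fun _ e => ⟨e.2, e.2⟩⟩

omit [DecidableEq m] [Fintype n] [DecidableEq n] in
theorem map_mulVec' (σ : K ≃ₐ[k] K) (Y : Matrix n m K) (v : m → K) :
    Y.map σ *ᵥ (σ ∘ v) = σ ∘ (Y *ᵥ v) :=
  funext fun i => (RingHom.map_mulVec (σ : K →+* K) Y v i).symm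

theorem Eq'.app {Y : Matrix n m K} (h : Eq' Γ A B Y) {σ : K ≃ₐ[k] K} (s : σ ∈ Γ) (v : m → K) :
    Y *ᵥ ((A σ).1 *ᵥ (σ ∘ v)) = (B σ).1 *ᵥ (σ ∘ (Y *ᵥ v)) := by
  rw [mulVec_mulVec, h σ s, ← mulVec_mulVec, map_mulVec']

theorem Stb.map {U : Submodule K (m → K)} (hU : Stb Γ A U) {Y : Matrix n m K} (h : Eq' Γ A B Y) :
    Stb Γ B (U.map Y.mulVecLin) := by
  rintro σ s _ ⟨v, hv, rfl⟩
  exact ⟨_, hU σ s v hv, h.app s v⟩

theorem Stb.ker {U : Submodule K (m → K)} (hU : Stb Γ A U) {Y : Matrix n m K} (h : Eq' Γ A B Y) :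
    Stb Γ A (U ⊓ LinearMap.ker Y.mulVecLin) := fun σ s v hv => ⟨hU σ s v hv.1, by
  have e : Y *ᵥ v = 0 := hv.2
  show Y *ᵥ _ = 0
  rw [h.app s, e, show σ ∘ (0 : n → K) = 0 from funext fun _ => map_zero σ, mulVec_zero]⟩

theorem Stb.inf {U T : Submodule K (m → K)} (hU : Stb Γ A U) (hT : Stb Γ A T) : Stb Γ A (U ⊓ T) :=
  fun σ s v hv => ⟨hU σ s v hv.1, hT σ s v hv.2⟩

theorem Stb.sup {U T : Submodule K (m → K)} (hU : Stb Γ A U) (hT : Stb Γ A T) :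
    Stb Γ A (U ⊔ T) := fun σ s v hv => by
  obtain ⟨a, ha, b, hb, rfl⟩ := Submodule.mem_sup.1 hv
  rw [show σ ∘ (a + b) = σ ∘ a + σ ∘ b from funext fun _ => map_add σ _ _, mulVec_add]
  exact Submodule.add_mem_sup (hU σ s a ha) (hT σ s b hb)

theorem act_ne (σ : K ≃ₐ[k] K) {v : m → K} (h : v ≠ 0) : (A σ).1 *ᵥ (σ ∘ v) ≠ 0 := fun e => by
  have := congrArg ((A σ)⁻¹.1 *ᵥ ·) e
  simp only [mulVec_mulVec, Units.inv_mul, one_mulVec, mulVec_zero] at this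
  exact h (funext fun i => σ.injective ((congrFun this i).trans (map_zero σ).symm))

theorem Stb.surj (h : Cm Γ A A) {U : Submodule K (m → K)} (hU : Stb Γ A U) {σ : K ≃ₐ[k] K}
    (s : σ ∈ Γ) {u : m → K} (hu : u ∈ U) : ∃ u' ∈ U, (A σ).1 *ᵥ (σ ∘ u') = u := by
  by_cases u0 : u = 0
  · exact ⟨0, zero_mem _, by
      rw [u0, show σ ∘ (0 : m → K) = 0 from funext fun _ => map_zero σ, mulVec_zero]⟩
  obtain ⟨z, e, -⟩ := h.mul σ s σ⁻¹ (inv_mem s)
  obtain ⟨S, hS⟩ := h.cont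
  obtain ⟨c, e1, -⟩ := hS 1 (one_mem _) fun _ _ => rfl
  have k : (A σ).1 *ᵥ (σ ∘ ((A σ⁻¹).1 *ᵥ (⇑σ⁻¹ ∘ u))) = (z * c) • u := by
    rw [← map_mulVec', mulVec_mulVec, e, mul_inv_cancel, e1, smul_smul, smul_mulVec, one_mulVec,
      show σ ∘ ⇑σ⁻¹ ∘ u = u from funext fun i => σ.apply_symm_apply _]
  have c0 : z * c ≠ 0 := fun e => act_ne σ (act_ne σ⁻¹ u0) (by rw [k, e, zero_smul])
  refine ⟨σ.symm (z * c)⁻¹ • _, U.smul_mem _ (hU σ⁻¹ (inv_mem s) u hu), ?_⟩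
  rw [show ∀ (a : K) (v : m → K), σ ∘ (a • v) = σ a • σ ∘ v from
    fun a v => funext fun _ => map_mul σ _ _, mulVec_smul, k, smul_smul, σ.apply_symm_apply,
    inv_mul_cancel₀ c0, one_smul]

theorem exists_mi [Nonempty n] (Γ : Subgroup (K ≃ₐ[k] K)) (B : (K ≃ₐ[k] K) → GL n K) :
    ∃ S, Mi Γ B S := by
  classical
  have h : ∃ d, ∃ S : Submodule K (n → K), Stb Γ B S ∧ S ≠ ⊥ ∧ finrank K S = d :=
    ⟨_, ⊤, fun _ _ _ _ => trivial, top_ne_bot, rfl⟩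
  obtain ⟨S, h1, h2, h3⟩ := Nat.find_spec h
  exact ⟨S, h1, h2, fun T t1 t2 => h3 ▸ Nat.find_min' h ⟨T, t1, t2, rfl⟩⟩

variable [Algebra.IsAlgebraic k K]

/-- The equivariant maps span every stable space of maps. -/
theorem Cm.fx [Nonempty m] (h : Cm Γ A B) (W W₀ : Submodule K (Matrix n m K))
    (hW : ∀ σ ∈ Γ, ∀ Y ∈ W, (B σ).1 * Y.map σ * (A σ)⁻¹.1 ∈ W) {X : Matrix n m K} (h1 : X ∈ W)
    (h0 : X ∉ W₀) : ∃ Y ∈ W, Y ∉ W₀ ∧ Eq' Γ A B Y := by
  by_contra c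
  refine h0 (Submodule.span_le.2 (fun Y hY => ?_) ((sl_hom A B h.mul h.cont).mem_span W hW h1))
  by_contra e
  refine c ⟨Y, hY.2, e, fun σ s => ?_⟩
  conv_lhs => rw [← hY.1 σ s]
  rw [Matrix.mul_assoc, Units.inv_mul, Matrix.mul_one]

theorem Cm.exf (h : Cm Γ A B) {U : Submodule K (m → K)} (hU : U ≠ ⊥) {S T : Submodule K (n → K)}
    (hS : Stb Γ B S) (l : ¬S ≤ T) :
    ∃ Y, Eq' Γ A B Y ∧ U.map Y.mulVecLin ≤ S ∧ ¬U.map Y.mulVecLin ≤ T := by
  obtain ⟨u, hu, u0⟩ := (Submodule.ne_bot_iff _).1 hU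
  obtain ⟨i, hi⟩ := Function.ne_iff.1 u0
  have : Nonempty m := ⟨i⟩
  obtain ⟨s, s1, s2⟩ := SetLike.not_le_iff_exists.1 l
  let L : Submodule K (m → K) → Submodule K (n → K) → Submodule K (Matrix n m K) := fun U T =>
    { carrier := {Y | ∀ v ∈ U, Y *ᵥ v ∈ T}
      add_mem' := fun a b v hv => by rw [add_mulVec]; exact add_mem (a v hv) (b v hv)
      zero_mem' := fun v _ => by rw [zero_mulVec]; exact zero_mem _
      smul_mem' := fun c _ a v hv => by rw [smul_mulVec]; exact T.smul_mem c (a v hv) }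
  have kX : ∀ v, vecMulVec s (Pi.single i (u i)⁻¹) *ᵥ v = ((u i)⁻¹ * v i) • s := fun v => by
    rw [vecMulVec_mulVec, single_dotProduct, op_smul_eq_smul]
  obtain ⟨Y, h1, h2, h3⟩ := h.fx (L ⊤ S) (L U T) (X := vecMulVec s (Pi.single i (u i)⁻¹))
    (fun σ t Y hY v _ => by
      rw [← mulVec_mulVec, ← mulVec_mulVec, show (A σ)⁻¹.1 *ᵥ v = σ ∘ σ.symm ∘ ((A σ)⁻¹.1 *ᵥ v) from
        funext fun _ => (σ.apply_symm_apply _).symm, map_mulVec']
      exact hS σ t _ (hY _ trivial))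
    (fun v _ => by rw [kX]; exact S.smul_mem _ s1)
    (fun e => s2 (by simpa [kX, inv_mul_cancel₀ hi] using e u hu))
  exact ⟨Y, h3, by rintro _ ⟨v, -, rfl⟩; exact h1 v trivial, fun e => h2 fun v hv => e ⟨v, hv, rfl⟩⟩

/-- The least dimension divides the dimensions of all stable subspaces. -/
theorem Cm.dvd (h : Cm Γ A B) {S : Submodule K (n → K)} (hS : Mi Γ B S) {U : Submodule K (m → K)}
    (hU : Stb Γ A U) : finrank K S ∣ finrank K U := by
  induction' e : finrank K U using Nat.strong_induction_on with d ih generalizing U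
  by_cases U0 : U = ⊥
  · rw [← e, U0, finrank_bot]
    exact dvd_zero _
  obtain ⟨Y, h1, h2, h3⟩ := h.exf U0 hS.1 (T := ⊥) fun l => hS.2.1 (le_bot_iff.1 l)
  have e1 : finrank K (U.map Y.mulVecLin) = finrank K S := le_antisymm (Submodule.finrank_mono h2)
    (hS.2.2 _ (hU.map h1) fun e => h3 e.le)
  have e2 := (Y.mulVecLin.domRestrict U).finrank_range_add_finrank_ker
  rw [LinearMap.range_domRestrict, LinearMap.ker_domRestrict, ← Submodule.finrank_map_subtype_eq,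
    Submodule.map_comap_subtype, e1, e] at e2
  have p : finrank K S ≠ 0 := fun c => hS.2.1 (Submodule.finrank_eq_zero.1 c)
  rw [← e2]
  exact dvd_add dvd_rfl (ih _ (by omega) (hU.ker h1) rfl)

/-- Stable subspaces can be enlarged by the least dimension. -/
theorem Cm.step (h : Cm Γ B B) {S U : Submodule K (n → K)} (hS : Mi Γ B S) (hU : Stb Γ B U)
    (l : U ≠ ⊤) : ∃ U', Stb Γ B U' ∧ finrank K U' = finrank K U + finrank K S := by
  obtain ⟨Y, h1, -, h3⟩ := h.exf hS.2.1 (S := ⊤) (T := U) (fun _ _ _ _ => trivial)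
    fun e => l (top_le_iff.1 e)
  have t := hS.1.map h1
  have e0 := Submodule.finrank_map_le Y.mulVecLin S
  have e1 := hS.2.2 _ t fun e => h3 (e ▸ bot_le)
  have e2 : U ⊓ S.map Y.mulVecLin = ⊥ := by
    by_contra c
    have := hS.2.2 _ (hU.inf t) c
    exact h3 (inf_eq_right.1 (Submodule.eq_of_le_of_finrank_le inf_le_right (e0.trans this)))
  have e3 := U.finrank_sup_add_finrank_inf_eq (S.map Y.mulVecLin)
  rw [e2, finrank_bot] at e3
  exact ⟨_, hU.sup t, by omega⟩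

/-- A stable subspace is the image of a rational idempotent. -/
theorem Cm.proj (h : Cm Γ B B) {U : Submodule K (n → K)} (hU : Stb Γ B U) :
    ∃ E, Eq' Γ B B E ∧ E * E = E ∧ LinearMap.range E.mulVecLin = U := by
  by_cases U0 : U = ⊥
  · exact ⟨0, fun _ _ => by simp, by simp, by simp [U0]⟩
  obtain ⟨u, hu, u0⟩ := (Submodule.ne_bot_iff _).1 U0
  obtain ⟨i, hi⟩ := Function.ne_iff.1 u0
  have : Nonempty n := ⟨i⟩
  let W : Submodule K (Matrix n n K) :=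
    { carrier := {Y | (∀ v, Y *ᵥ v ∈ U) ∧ ∃ c : K, ∀ v ∈ U, Y *ᵥ v = c • v}
      add_mem' := by
        rintro a b ⟨a1, c, a2⟩ ⟨b1, d, b2⟩
        exact ⟨fun v => by rw [add_mulVec]; exact add_mem (a1 v) (b1 v),
          c + d, fun v hv => by rw [add_mulVec, a2 v hv, b2 v hv, add_smul]⟩
      zero_mem' := ⟨fun v => by simp, 0, fun v _ => by simp⟩
      smul_mem' := by
        rintro d a ⟨a1, c, a2⟩
        exact ⟨fun v => by rw [smul_mulVec]; exact U.smul_mem d (a1 v),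
          d * c, fun v hv => by rw [smul_mulVec, a2 v hv, smul_smul]⟩ }
  have ks : ∀ (σ : K ≃ₐ[k] K) (a : K) (v : n → K), σ ∘ (a • v) = σ a • σ ∘ v :=
    fun σ a v => funext fun _ => map_mul σ _ _
  obtain ⟨q, hq⟩ := U.exists_isCompl
  obtain ⟨Y, ⟨h1, c, h2⟩, h0, h3⟩ := h.fx W (LinearMap.ker ((Matrix.mulVecBilin K K).flip u))
    (X := LinearMap.toMatrix' (U.projection q hq))
    (by
      rintro σ t Y ⟨h1, c, h2⟩
      refine ⟨fun v => ?_, σ c, fun v hv => ?_⟩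
      · rw [← mulVec_mulVec, ← mulVec_mulVec, show (B σ)⁻¹.1 *ᵥ v = σ ∘ σ.symm ∘ ((B σ)⁻¹.1 *ᵥ v)
          from funext fun _ => (σ.apply_symm_apply _).symm, map_mulVec']
        exact hU σ t _ (h1 _)
      · obtain ⟨v, hw, rfl⟩ := hU.surj h t hv
        rw [mulVec_mulVec, Matrix.mul_assoc, Units.inv_mul, Matrix.mul_one, ← mulVec_mulVec,
          map_mulVec', h2 v hw, ks, mulVec_smul])
    ⟨fun v => by rw [LinearMap.toMatrix'_mulVec]; exact U.projection_apply_mem hq v,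
      1, fun v hv => by rw [LinearMap.toMatrix'_mulVec, one_smul]
                        exact U.projection_apply_left hq ⟨v, hv⟩⟩
    (fun e => u0 (by
      have e : LinearMap.toMatrix' (U.projection q hq) *ᵥ u = 0 := e
      rw [LinearMap.toMatrix'_mulVec] at e
      exact (U.projection_apply_left hq ⟨u, hu⟩).symm.trans e))
  have c0 : c ≠ 0 := fun e => h0 (show Y *ᵥ u = 0 by rw [h2 u hu, e, zero_smul])
  have k : ∀ v ∈ U, (c⁻¹ • Y) *ᵥ v = v := fun v hv => by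
    rw [smul_mulVec, h2 v hv, smul_smul, inv_mul_cancel₀ c0, one_smul]
  have k1 : ∀ v, (c⁻¹ • Y) *ᵥ v ∈ U := fun v => by rw [smul_mulVec]; exact U.smul_mem _ (h1 v)
  refine ⟨c⁻¹ • Y, fun σ s => ?_, ?_, le_antisymm ?_ fun v hv => ⟨v, k v hv⟩⟩
  · have := h3.app s u
    rw [h2 _ (hU σ s u hu), h2 u hu, ks, mulVec_smul] at this
    rw [P011LD.map_smul', map_inv₀, ← smul_left_injective K (act_ne σ u0) this, Matrix.smul_mul, h3 σ s,
      Matrix.mul_smul]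
  · exact Matrix.ext_of_mulVec_single fun j => by rw [← mulVec_mulVec, k _ (k1 _)]
  · rintro _ ⟨v, rfl⟩
    exact k1 v

end

section

variable {k K : Type} [Field k] [Field K] [Algebra k K] {n : Type} [Fintype n] [DecidableEq n]
  {o : (K ≃ₐ[k] K) →* ℤˣ} {M : (K ≃ₐ[k] K) → GL n K} {κ : (K ≃ₐ[k] K) → K}

theorem md_mul (h : MD o M κ) {σ τ : K ≃ₐ[k] K} (s : o σ = 1) :
    ∃ z : K, (M σ).1 * (M τ).1.map σ = z • (M (σ * τ)).1 ∧ z ^ 3 * κ σ * σ (κ τ) = κ (σ * τ) := by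
  obtain ⟨z, h1, h2⟩ := h.mul σ τ
  simp only [st, s, if_true, true_or, mul_one, one_mul] at h1 h2
  exact ⟨z, h1, h2⟩

theorem md_cm (h : MD o M κ) : Cm o.ker M M :=
  ⟨fun σ s τ _ => (md_mul h s).imp fun _ e => ⟨e.1, e.1⟩,
    h.cont.elim fun S hS => ⟨S, fun σ _ e => ⟨1, by simp [(hS σ trivial e).2.1]⟩⟩⟩

/-- The action on the bilinear forms. -/
def bl (h : MD o M κ) (σ : K ≃ₐ[k] K) : GL (n × n) K :=
  ⟨(κ σ)⁻¹ • ((M σ)⁻¹.1ᵀ ⊗ₖ (M σ)⁻¹.1ᵀ), κ σ • ((M σ).1ᵀ ⊗ₖ (M σ).1ᵀ), by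
    rw [Matrix.smul_mul, Matrix.mul_smul, smul_smul, inv_mul_cancel₀ (h.ne σ), one_smul,
      ← mul_kronecker_mul, ← transpose_mul, Units.mul_inv, transpose_one, one_kronecker_one], by
    rw [Matrix.smul_mul, Matrix.mul_smul, smul_smul, mul_inv_cancel₀ (h.ne σ), one_smul,
      ← mul_kronecker_mul, ← transpose_mul, Units.inv_mul, transpose_one, one_kronecker_one]⟩

theorem bl_cm (h : MD o M κ) : Cm o.ker (bl h) M := by
  refine ⟨fun σ s τ _ => ?_, h.cont.elim fun S hS => ⟨S, fun σ _ e => ⟨1, ?_⟩⟩⟩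
  · obtain ⟨z, h1, h2⟩ := md_mul h (τ := τ) s
    have z0 : z ≠ 0 := by
      rintro rfl
      exact h.ne _ (by simpa using h2.symm)
    have i2 : (M τ).1.map σ * (M τ)⁻¹.1.map σ = 1 := by rw [← map_mul', Units.mul_inv, map_one']
    have h3 : (M τ)⁻¹.1.map σ * (M σ)⁻¹.1 = z⁻¹ • (M (σ * τ))⁻¹.1 := by
      have := congrArg (fun X => z⁻¹ • ((M (σ * τ))⁻¹.1 * X * ((M τ)⁻¹.1.map σ * (M σ)⁻¹.1))) h1
      simp only [Matrix.mul_smul, Matrix.smul_mul, smul_smul, inv_mul_cancel₀ z0, one_smul,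
        Units.inv_mul, Matrix.one_mul] at this
      rw [← this, Matrix.mul_assoc, Matrix.mul_assoc, ← Matrix.mul_assoc (Matrix.map _ _), i2,
        Matrix.one_mul, Units.mul_inv, Matrix.mul_one]
    refine ⟨z, ?_, h1⟩
    show _ • _ * Matrix.map (_ • _) _ = z • _ • _
    rw [P011LD.map_smul', show ((M τ)⁻¹.1ᵀ ⊗ₖ (M τ)⁻¹.1ᵀ).map σ =
      ((M τ)⁻¹.1.map σ)ᵀ ⊗ₖ ((M τ)⁻¹.1.map σ)ᵀ from Matrix.ext fun _ _ => map_mul σ _ _,
      Matrix.smul_mul, Matrix.mul_smul, ← mul_kronecker_mul, ← transpose_mul, h3, transpose_smul,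
      smul_kronecker, kronecker_smul, smul_smul, smul_smul, smul_smul, smul_smul, ← h2, map_inv₀]
    congr 1
    have := h.ne σ
    have := (map_ne_zero σ).2 (h.ne τ)
    field_simp
  · obtain ⟨-, h1, h2⟩ := hS σ trivial e
    simp [bl, h1, h2]

theorem bl_stb (h : MD o M κ) : Stb o.ker (bl h)
    (LinearMap.range (LinearMap.funLeft K K fun p : n × n => s(p.1, p.2))) := by
  rintro σ - _ ⟨f, rfl⟩
  refine ⟨Sym2.lift ⟨fun i j => ((bl h σ).1 *ᵥ fun p => σ (f s(p.1, p.2))) (i, j), fun i j => ?_⟩,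
    rfl⟩
  refine Fintype.sum_equiv (Equiv.prodComm n n) _ _ fun p => ?_
  simp only [bl, Matrix.smul_apply, kroneckerMap_apply, Equiv.prodComm_apply, Prod.fst_swap,
    Prod.snd_swap, Sym2.eq_swap (a := p.2), mul_comm ((M σ)⁻¹.1ᵀ i _)]

variable [Algebra.IsAlgebraic k K]

theorem mi_dvd (hn : Fintype.card n = 6) (h : MD o M κ) {S : Submodule K (n → K)}
    (hS : Mi o.ker M S) : finrank K S = 1 ∨ finrank K S = 3 := by
  have h1 := (md_cm h).dvd hS (U := ⊤) fun _ _ _ _ => trivial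
  have h2 := (bl_cm h).dvd hS (bl_stb h)
  rw [LinearMap.finrank_range_of_inj (LinearMap.funLeft_injective_of_surjective K K _
    fun x => Sym2.ind (fun a b => ⟨(a, b), rfl⟩) x), finrank_fintype_fun_eq_card, Sym2.card, hn] at h2
  rw [finrank_top, finrank_fintype_fun_eq_card, hn] at h1
  exact (Nat.dvd_prime Nat.prime_three).1 (Nat.dvd_gcd h1 h2)

end

theorem idx : IDX := fun k K _ _ _ _ _ n _ _ hn o M κ h => by
  have : Nonempty n := Fintype.card_pos_iff.1 (by omega)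
  obtain ⟨S, hS⟩ := exists_mi o.ker M
  have c := md_cm h
  obtain ⟨U, h1, h2⟩ : ∃ U, Stb o.ker M U ∧ finrank K U = 3 := by
    rcases mi_dvd hn h hS with e | e
    · have t : ∀ U : Submodule K (n → K), finrank K U < 6 → U ≠ ⊤ := fun U l e => by
        rw [e, finrank_top, finrank_fintype_fun_eq_card] at l
        omega
      obtain ⟨U, u1, u2⟩ := c.step hS hS.1 (t _ (by omega))
      obtain ⟨U', v1, v2⟩ := c.step hS u1 (t _ (by omega))
      exact ⟨U', v1, by omega⟩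
    · exact ⟨S, hS.1, e⟩
  obtain ⟨E, e1, e2, e3⟩ := c.proj h1
  exact ⟨E, e1, e2, by rw [Matrix.rank, e3, h2]⟩

theorem rk : RK := fun k K _ _ _ _ _ n _ _ hn o M κ h hs U hU => by
  have : Nonempty n := Fintype.card_pos_iff.1 (by omega)
  obtain ⟨S, hS⟩ := exists_mi o.ker M
  rcases mi_dvd hn h hS with e | e
  · obtain ⟨v, v0, hv⟩ := finrank_eq_one_iff'.1 e
    refine absurd ⟨v.1, fun c => v0 (Subtype.ext c), fun σ s => ?_⟩ hs
    exact (hv ⟨_, hS.1 σ s v.1 v.2⟩).imp fun _ e => (congrArg Subtype.val e).symm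
  · have h1 := (md_cm h).dvd hS (U := U) hU
    have h2 := U.finrank_le
    rw [finrank_fintype_fun_eq_card, hn] at h2
    rw [e] at h1
    have : finrank K U = 0 ∨ finrank K U = 6 ∨ finrank K U = 3 := by omega
    refine this.imp Submodule.finrank_eq_zero.1 (Or.imp_left fun e => ?_)
    exact Submodule.eq_top_of_finrank_eq (by rw [e, finrank_fintype_fun_eq_card, hn])

end Vale.Agent.P011UF2a
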